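import Mathlib

/-!
# P162: the Thorp shuffle as a Markov chain on the orders of a deck of `n` cards
-/

namespace Vale.Agent.P162H

/-- The transition matrix of one Thorp shuffle (problem file: the deck is cut into its top half and
its bottom half; for each `i` the cards in positions `i` and `n/2 + i` are placed in positions
`2i - 1` and `2i` of the new deck, in an order chosen by a fair coin, all `n/2` coins independent).
Here the positions are `0, ..., n - 1` and a deck order is a bijection `D` from positions to cards:
`D p` is the card in position `p`.  The probability to go from `D` to `D'` is `(1/2) ^ (n/2)` if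
for each `a < n/2` the cards in positions `a` and `n/2 + a` of `D` are those in positions `2 a` and
`2 a + 1` of `D'`, in one of the two orders, and `0` otherwise. -/
noncomputable def thorp (n : ℕ) : Matrix (Equiv.Perm (Fin n)) (Equiv.Perm (Fin n)) ℝ :=
  Matrix.of fun D D' =>
    if ∀ a b p q : Fin n, (b : ℕ) = n / 2 + a → (p : ℕ) = 2 * a → (q : ℕ) = 2 * a + 1 →
        (D' p = D a ∧ D' q = D b) ∨ (D' p = D b ∧ D' q = D a)
    then (1 / 2) ^ (n / 2) else 0

end Vale.Agent.P162H
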