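import Vale.Agent.Lib.P162H.Defs
import Vale.Agent.Lib.P162.Defs

/-!
# P162: the powers of the transition matrix are the convolution powers of the Thorp law
-/

namespace Vale.Agent.P162H

open Vale.Agent.P162

/-- the coins of a transition are determined -/
theorem card_coins (m : ℕ) (D D' : Equiv.Perm (Fin (2 * m))) :
    (Nat.card {c : Fin m → Bool // IsThorp m c (D'⁻¹ * D)} : ℝ) =
      if ∀ a b p q : Fin (2 * m), (b : ℕ) = (2 * m) / 2 + a → (p : ℕ) = 2 * a →
        (q : ℕ) = 2 * a + 1 → (D' p = D a ∧ D' q = D b) ∨ (D' p = D b ∧ D' q = D a)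
      then 1 else 0 := by
  have hm : 2 * m / 2 = m := by omega
  have key : ∀ (c : Fin m → Bool), IsThorp m c (D'⁻¹ * D) ↔ ∀ i : Fin m,
      D' ⟨2 * i.1 + (if c i = true then 1 else 0), by have := i.2; split_ifs <;> omega⟩ =
        D ⟨i.1, by have := i.2; omega⟩ ∧
      D' ⟨2 * i.1 + (if c i = true then 0 else 1), by have := i.2; split_ifs <;> omega⟩ =
        D ⟨m + i.1, by have := i.2; omega⟩ := by
    intro c
    unfold IsThorp
    refine forall_congr' fun i => ?_
    refine and_congr ?_ ?_
    · rw [Equiv.Perm.mul_apply]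
      constructor
      · intro h
        rw [Equiv.Perm.inv_def] at h
        rw [← Equiv.apply_symm_apply D' (D ⟨i.1, by have := i.2; omega⟩)]
        exact congrArg D' (Fin.ext h.symm)
      · intro h
        rw [← h, Equiv.Perm.inv_def, Equiv.symm_apply_apply]
    · rw [Equiv.Perm.mul_apply]
      constructor
      · intro h
        rw [Equiv.Perm.inv_def] at h
        rw [← Equiv.apply_symm_apply D' (D ⟨m + i.1, by have := i.2; omega⟩)]
        exact congrArg D' (Fin.ext h.symm)
      · intro h
        rw [← h, Equiv.Perm.inv_def, Equiv.symm_apply_apply]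
  by_cases H : ∀ a b p q : Fin (2 * m), (b : ℕ) = (2 * m) / 2 + a → (p : ℕ) = 2 * a →
      (q : ℕ) = 2 * a + 1 → (D' p = D a ∧ D' q = D b) ∨ (D' p = D b ∧ D' q = D a)
  · rw [if_pos H]
    have hu : ∃ c₀ : Fin m → Bool, ∀ c, IsThorp m c (D'⁻¹ * D) ↔ c = c₀ := by
      refine ⟨fun i => decide (D' ⟨2 * i.1 + 1, by have := i.2; omega⟩ =
        D ⟨i.1, by have := i.2; omega⟩), fun c => ?_⟩
      rw [key]
      constructor
      · intro h
        funext i
        obtain ⟨h1, h2⟩ := h i
        rcases Bool.eq_false_or_eq_true (c i) with hc | hc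
        · simp only [hc, if_true] at h1
          rw [hc]
          symm
          rw [decide_eq_true_iff]
          exact h1
        · simp only [hc, Bool.false_eq_true, if_false] at h2
          rw [hc]
          symm
          rw [decide_eq_false_iff_not]
          intro h3
          rw [h3] at h2
          have h4 := congrArg Fin.val (D.injective h2)
          simp only at h4
          have := i.2
          omega
      · intro h i
        have hi := i.2
        have h1 := H ⟨i.1, by omega⟩ ⟨m + i.1, by omega⟩ ⟨2 * i.1, by omega⟩ ⟨2 * i.1 + 1, by omega⟩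
          (by simp only; omega) rfl rfl
        rcases h1 with ⟨h1, h2⟩ | ⟨h1, h2⟩
        · have hc : c i = false := by
            rw [h, decide_eq_false_iff_not]
            intro h3
            rw [h3] at h2
            have h4 := congrArg Fin.val (D.injective h2)
            simp only at h4
            omega
          simp only [hc, Bool.false_eq_true, if_false, add_zero]
          exact ⟨h1, h2⟩
        · have hc : c i = true := by
            rw [h, decide_eq_true_iff]
            exact h2
          simp only [hc, if_true, add_zero]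
          exact ⟨h2, h1⟩
    obtain ⟨c₀, hc₀⟩ := hu
    have : Nat.card {c : Fin m → Bool // IsThorp m c (D'⁻¹ * D)} = 1 := by
      rw [Nat.card_eq_one_iff_unique]
      refine ⟨⟨fun x y => Subtype.ext ?_⟩, ⟨⟨c₀, (hc₀ c₀).2 rfl⟩⟩⟩
      rw [(hc₀ x.1).1 x.2, (hc₀ y.1).1 y.2]
    rw [this, Nat.cast_one]
  · rw [if_neg H]
    have : IsEmpty {c : Fin m → Bool // IsThorp m c (D'⁻¹ * D)} := by
      refine ⟨fun x => H ?_⟩
      obtain ⟨c, hc⟩ := x
      rw [key] at hc
      intro a b p q hb hp hq
      have ha : a.1 < m := by have := q.2; omega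
      obtain ⟨h1, h2⟩ := hc ⟨a.1, ha⟩
      rcases Bool.eq_false_or_eq_true (c ⟨a.1, ha⟩) with h | h
      · right
        simp only [h, if_true, add_zero] at h1 h2
        constructor
        · rw [show p = ⟨2 * a.1, by omega⟩ from Fin.ext hp, h2]
          congr 1
          exact Fin.ext (by simp only; omega)
        · rw [show q = ⟨2 * a.1 + 1, by omega⟩ from Fin.ext hq, h1]
      · left
        simp only [h, Bool.false_eq_true, if_false, add_zero] at h1 h2
        constructor
        · rw [show p = ⟨2 * a.1, by omega⟩ from Fin.ext hp, h1]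
        · rw [show q = ⟨2 * a.1 + 1, by omega⟩ from Fin.ext hq, h2]
          congr 1
          exact Fin.ext (by simp only; omega)
    rw [Nat.card_of_isEmpty, Nat.cast_zero]

theorem thorp_eq (m : ℕ) (D D' : Equiv.Perm (Fin (2 * m))) :
    thorp (2 * m) D D' = thorpLaw m (D'⁻¹ * D) := by
  unfold thorpLaw
  rw [card_coins, thorp, Matrix.of_apply]
  have hm : 2 * m / 2 = m := by omega
  by_cases H : ∀ a b p q : Fin (2 * m), (b : ℕ) = (2 * m) / 2 + a → (p : ℕ) = 2 * a →
      (q : ℕ) = 2 * a + 1 → (D' p = D a ∧ D' q = D b) ∨ (D' p = D b ∧ D' q = D a)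
  · rw [if_pos H, if_pos H, hm, one_div, inv_pow, one_div]
  · rw [if_neg H, if_neg H, zero_div]

theorem thorp_pow (m t : ℕ) (D D' : Equiv.Perm (Fin (2 * m))) :
    (thorp (2 * m) ^ t) D D' = convPow (thorpLaw m) t (D'⁻¹ * D) := by
  induction t generalizing D' with
  | zero =>
    rw [pow_zero, Matrix.one_apply]
    change _ = if D'⁻¹ * D = 1 then (1 : ℝ) else 0
    by_cases h : D = D'
    · rw [if_pos h, if_pos (by rw [h, inv_mul_cancel])]
    · rw [if_neg h, if_neg fun h' => h (inv_mul_eq_one.1 h').symm]
  | succ t ih =>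
    rw [pow_succ, Matrix.mul_apply]
    change _ = ∑ h, thorpLaw m h * convPow (thorpLaw m) t (h⁻¹ * (D'⁻¹ * D))
    rw [← Equiv.sum_comp (Equiv.mulLeft D'⁻¹)
      (fun h => thorpLaw m h * convPow (thorpLaw m) t (h⁻¹ * (D'⁻¹ * D)))]
    refine Finset.sum_congr rfl fun E _ => ?_
    rw [ih, thorp_eq, Equiv.coe_mulLeft, mul_comm]
    congr 2
    group

/-- the distance from uniform does not depend on the initial deck -/
theorem dist_eq {n m : ℕ} (hn : n = 2 * m) (t : ℕ) (D : Equiv.Perm (Fin n)) :
    (1 / 2 : ℝ) * ∑ D', |(thorp n ^ t) D D' - 1 / (n.factorial : ℝ)| =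
      tvUnif (convPow (thorpLaw m) t) := by
  subst hn
  unfold tvUnif
  congr 1
  rw [Fintype.card_perm, Fintype.card_fin,
    ← Equiv.sum_comp ((Equiv.inv _).trans (Equiv.mulRight D))
      (fun g => |convPow (thorpLaw m) t g - 1 / ((2 * m).factorial : ℝ)|)]
  refine Finset.sum_congr rfl fun E _ => ?_
  rw [thorp_pow]
  rfl

end Vale.Agent.P162H
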